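import Crest.Agent.Helper75.MC.Defs

/-!
# S0171, package WP-B : the resolvent kernel

For a reversible stochastic chain `(w, A)` and `0 < κ < 1` we construct
`G = ∑_{s ≥ 0} κ^s A^s` (entrywise convergent series; this is `(1 - κ A)⁻¹`) and
`B = (1 - κ) A G`, and prove all the fields of `Crest.Agent.Helper75.MC.Kernel`.
Elementary: geometric series, exchange of a finite sum with a convergent series.
-/

set_option autoImplicit false

open Finset Matrix

namespace Crest.Agent.Helper69.MC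

open Crest.Agent.Helper75.MC

variable {n : ℕ}

/-- Powers of an entrywise nonnegative matrix are entrywise nonnegative. -/
theorem pow_entry_nonneg (A : Matrix (Fin n) (Fin n) ℝ) (hA : ∀ i j, 0 ≤ A i j) :
    ∀ (s : ℕ) (i j : Fin n), 0 ≤ (A ^ s) i j := by
  intro s
  induction s with
  | zero =>
    intro i j
    rw [pow_zero, Matrix.one_apply]
    split_ifs <;> norm_num
  | succ s ih =>
    intro i j
    rw [pow_succ, Matrix.mul_apply]
    exact Finset.sum_nonneg fun k _ => mul_nonneg (ih i k) (hA k j)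

/-- Powers of a matrix with row sums `1` have row sums `1`. -/
theorem pow_row_sum (A : Matrix (Fin n) (Fin n) ℝ) (hA1 : ∀ i, ∑ j, A i j = 1) :
    ∀ (s : ℕ) (i : Fin n), ∑ j, (A ^ s) i j = 1 := by
  intro s
  induction s with
  | zero =>
    intro i
    simp [Matrix.one_apply]
  | succ s ih =>
    intro i
    simp_rw [pow_succ, Matrix.mul_apply]
    rw [Finset.sum_comm]
    simp_rw [← Finset.mul_sum, hA1, mul_one]
    exact ih i

/-- Entries of powers of a stochastic matrix are at most `1`. -/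
theorem pow_entry_le_one (A : Matrix (Fin n) (Fin n) ℝ) (hA : ∀ i j, 0 ≤ A i j)
    (hA1 : ∀ i, ∑ j, A i j = 1) (s : ℕ) (i j : Fin n) : (A ^ s) i j ≤ 1 := by
  rw [← pow_row_sum A hA1 s i]
  exact Finset.single_le_sum (f := fun j => (A ^ s) i j)
    (fun k _ => pow_entry_nonneg A hA s i k) (Finset.mem_univ j)

/-- Powers of a `w`-reversible matrix are `w`-reversible. -/
theorem pow_rev (w : Fin n → ℝ) (A : Matrix (Fin n) (Fin n) ℝ)
    (hrev : ∀ i j, w i * A i j = w j * A j i) :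
    ∀ (s : ℕ) (i j : Fin n), w i * (A ^ s) i j = w j * (A ^ s) j i := by
  intro s
  induction s with
  | zero =>
    intro i j
    rw [pow_zero, Matrix.one_apply, Matrix.one_apply]
    by_cases h : i = j
    · subst h; simp
    · have h' : ¬ j = i := fun e => h e.symm
      simp [h, h']
  | succ s ih =>
    intro i j
    have e1 : (A ^ (s + 1)) i j = ∑ k, (A ^ s) i k * A k j := by
      rw [pow_succ, Matrix.mul_apply]
    have e2 : (A ^ (s + 1)) j i = ∑ k, A j k * (A ^ s) k i := by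
      rw [pow_succ', Matrix.mul_apply]
    rw [e1, e2, Finset.mul_sum, Finset.mul_sum]
    refine Finset.sum_congr rfl fun k _ => ?_
    calc w i * ((A ^ s) i k * A k j) = (w i * (A ^ s) i k) * A k j := by ring
      _ = (w k * (A ^ s) k i) * A k j := by rw [ih i k]
      _ = (w k * A k j) * (A ^ s) k i := by ring
      _ = (w j * A j k) * (A ^ s) k i := by rw [hrev k j]
      _ = w j * (A j k * (A ^ s) k i) := by ring

/-- The series defining the resolvent is summable entrywise (also after a shift of the power). -/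
theorem res_summable (A : Matrix (Fin n) (Fin n) ℝ) (hA : ∀ i j, 0 ≤ A i j)
    (hA1 : ∀ i, ∑ j, A i j = 1) (κ : ℝ) (hκ0 : 0 ≤ κ) (hκ1 : κ < 1) (m : ℕ) (i j : Fin n) :
    Summable fun s : ℕ => κ ^ s * (A ^ (s + m)) i j := by
  refine Summable.of_nonneg_of_le (fun s => ?_) (fun s => ?_)
    (summable_geometric_of_lt_one hκ0 hκ1)
  · exact mul_nonneg (pow_nonneg hκ0 s) (pow_entry_nonneg A hA _ i j)
  · calc κ ^ s * (A ^ (s + m)) i j ≤ κ ^ s * 1 :=
        mul_le_mul_of_nonneg_left (pow_entry_le_one A hA hA1 _ i j) (pow_nonneg hκ0 s)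
      _ = κ ^ s := mul_one _

/-- The resolvent `G = ∑_{s ≥ 0} κ^s A^s` (`= (1 - κ A)⁻¹`), as an entrywise series. -/
noncomputable def res (A : Matrix (Fin n) (Fin n) ℝ) (κ : ℝ) : Matrix (Fin n) (Fin n) ℝ :=
  fun i j => ∑' s : ℕ, κ ^ s * (A ^ s) i j

theorem res_apply (A : Matrix (Fin n) (Fin n) ℝ) (κ : ℝ) (i j : Fin n) :
    res A κ i j = ∑' s : ℕ, κ ^ s * (A ^ s) i j := rfl

theorem res_nonneg (A : Matrix (Fin n) (Fin n) ℝ) (hA : ∀ i j, 0 ≤ A i j)
    (κ : ℝ) (hκ0 : 0 ≤ κ) (i j : Fin n) : 0 ≤ res A κ i j := by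
  rw [res_apply]
  exact tsum_nonneg fun s => mul_nonneg (pow_nonneg hκ0 s) (pow_entry_nonneg A hA _ i j)

theorem res_row_sum (A : Matrix (Fin n) (Fin n) ℝ) (hA : ∀ i j, 0 ≤ A i j)
    (hA1 : ∀ i, ∑ j, A i j = 1) (κ : ℝ) (hκ0 : 0 ≤ κ) (hκ1 : κ < 1) (i : Fin n) :
    ∑ j, res A κ i j = 1 / (1 - κ) := by
  simp_rw [res_apply]
  rw [← Summable.tsum_finsetSum
    (fun j _ => by simpa using res_summable A hA hA1 κ hκ0 hκ1 0 i j)]
  simp_rw [← Finset.mul_sum, pow_row_sum A hA1, mul_one]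
  rw [tsum_geometric_of_lt_one hκ0 hκ1, one_div]

theorem res_rev (w : Fin n → ℝ) (A : Matrix (Fin n) (Fin n) ℝ)
    (hrev : ∀ i j, w i * A i j = w j * A j i) (κ : ℝ) (i j : Fin n) :
    w i * res A κ i j = w j * res A κ j i := by
  rw [res_apply, res_apply, ← tsum_mul_left, ← tsum_mul_left]
  refine tsum_congr fun s => ?_
  calc w i * (κ ^ s * (A ^ s) i j) = κ ^ s * (w i * (A ^ s) i j) := by ring
    _ = κ ^ s * (w j * (A ^ s) j i) := by rw [pow_rev w A hrev]
    _ = w j * (κ ^ s * (A ^ s) j i) := by ring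

/-- `A * G` as a series. -/
theorem mul_res_apply (A : Matrix (Fin n) (Fin n) ℝ) (hA : ∀ i j, 0 ≤ A i j)
    (hA1 : ∀ i, ∑ j, A i j = 1) (κ : ℝ) (hκ0 : 0 ≤ κ) (hκ1 : κ < 1) (i j : Fin n) :
    (A * res A κ) i j = ∑' s : ℕ, κ ^ s * (A ^ (s + 1)) i j := by
  rw [Matrix.mul_apply]
  have h1 : ∀ k : Fin n, A i k * res A κ k j
      = ∑' s : ℕ, κ ^ s * (A i k * (A ^ s) k j) := by
    intro k
    rw [res_apply, ← tsum_mul_left (a := A i k)]
    refine tsum_congr fun s => ?_
    ring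
  simp_rw [h1]
  rw [← Summable.tsum_finsetSum]
  · refine tsum_congr fun s => ?_
    rw [← Finset.mul_sum]
    have e : (A ^ (s + 1)) i j = ∑ k, A i k * (A ^ s) k j := by
      rw [pow_succ' A s, Matrix.mul_apply]
    rw [e]
  · intro k _
    have := (res_summable A hA hA1 κ hκ0 hκ1 0 k j).mul_left (A i k)
    refine this.congr fun s => ?_
    simp only [add_zero]
    ring

/-- `G * A` as a series. -/
theorem res_mul_apply (A : Matrix (Fin n) (Fin n) ℝ) (hA : ∀ i j, 0 ≤ A i j)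
    (hA1 : ∀ i, ∑ j, A i j = 1) (κ : ℝ) (hκ0 : 0 ≤ κ) (hκ1 : κ < 1) (i j : Fin n) :
    (res A κ * A) i j = ∑' s : ℕ, κ ^ s * (A ^ (s + 1)) i j := by
  rw [Matrix.mul_apply]
  have h1 : ∀ k : Fin n, res A κ i k * A k j
      = ∑' s : ℕ, κ ^ s * ((A ^ s) i k * A k j) := by
    intro k
    rw [res_apply, ← tsum_mul_right (a := A k j)]
    refine tsum_congr fun s => ?_
    ring
  simp_rw [h1]
  rw [← Summable.tsum_finsetSum]
  · refine tsum_congr fun s => ?_
    rw [← Finset.mul_sum]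
    have e : (A ^ (s + 1)) i j = ∑ k, (A ^ s) i k * A k j := by
      rw [pow_succ A s, Matrix.mul_apply]
    rw [e]
  · intro k _
    have := (res_summable A hA hA1 κ hκ0 hκ1 0 i k).mul_right (A k j)
    refine this.congr fun s => ?_
    simp only [add_zero]
    ring

theorem res_comm (A : Matrix (Fin n) (Fin n) ℝ) (hA : ∀ i j, 0 ≤ A i j)
    (hA1 : ∀ i, ∑ j, A i j = 1) (κ : ℝ) (hκ0 : 0 ≤ κ) (hκ1 : κ < 1) :
    A * res A κ = res A κ * A := by
  ext i j
  rw [mul_res_apply A hA hA1 κ hκ0 hκ1, res_mul_apply A hA hA1 κ hκ0 hκ1]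

/-- The resolvent equation `G = 1 + κ A G`. -/
theorem res_eq (A : Matrix (Fin n) (Fin n) ℝ) (hA : ∀ i j, 0 ≤ A i j)
    (hA1 : ∀ i, ∑ j, A i j = 1) (κ : ℝ) (hκ0 : 0 ≤ κ) (hκ1 : κ < 1) :
    res A κ = 1 + κ • (A * res A κ) := by
  ext i j
  rw [Matrix.add_apply, Matrix.smul_apply, smul_eq_mul, mul_res_apply A hA hA1 κ hκ0 hκ1,
    res_apply]
  have hs : Summable fun s : ℕ => κ ^ s * (A ^ s) i j := by
    simpa using res_summable A hA hA1 κ hκ0 hκ1 0 i j
  rw [hs.tsum_eq_zero_add]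
  have h2 : ∑' s : ℕ, κ ^ (s + 1) * (A ^ (s + 1)) i j
      = κ * ∑' s : ℕ, κ ^ s * (A ^ (s + 1)) i j := by
    rw [← tsum_mul_left]
    refine tsum_congr fun s => ?_
    rw [pow_succ]; ring
  rw [h2]
  simp only [pow_zero, one_mul]

/-- The geometric-time kernel `B = (1 - κ) A G`. -/
noncomputable def ker (A : Matrix (Fin n) (Fin n) ℝ) (κ : ℝ) : Matrix (Fin n) (Fin n) ℝ :=
  (1 - κ) • (A * res A κ)

/-- The resolvent equation for `B`: `B = (1 - κ) A + κ A B`. -/
theorem ker_res (A : Matrix (Fin n) (Fin n) ℝ) (hA : ∀ i j, 0 ≤ A i j)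
    (hA1 : ∀ i, ∑ j, A i j = 1) (κ : ℝ) (hκ0 : 0 ≤ κ) (hκ1 : κ < 1) :
    ker A κ = (1 - κ) • A + κ • (A * ker A κ) := by
  have hG := res_eq A hA hA1 κ hκ0 hκ1
  unfold ker
  conv_lhs => rw [hG]
  rw [Matrix.mul_add, Matrix.mul_one, Matrix.mul_smul, Matrix.mul_smul, smul_add, smul_smul,
    smul_smul, mul_comm (1 - κ) κ]

/-- Iterated resolvent equation. -/
theorem ker_pow (A : Matrix (Fin n) (Fin n) ℝ) (hA : ∀ i j, 0 ≤ A i j)
    (hA1 : ∀ i, ∑ j, A i j = 1) (κ : ℝ) (hκ0 : 0 ≤ κ) (hκ1 : κ < 1) (m : ℕ) :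
    ker A κ = (1 - κ) • ∑ s ∈ Finset.Icc 1 m, κ ^ (s - 1) • A ^ s
      + κ ^ m • (A ^ m * ker A κ) := by
  induction m with
  | zero => simp
  | succ m ih =>
    have hB := ker_res A hA hA1 κ hκ0 hκ1
    have h3 : A ^ m * ker A κ
        = (1 - κ) • A ^ (m + 1) + κ • (A ^ (m + 1) * ker A κ) := by
      conv_lhs => rw [hB]
      rw [Matrix.mul_add, Matrix.mul_smul, Matrix.mul_smul, ← Matrix.mul_assoc, ← pow_succ]
    conv_lhs => rw [ih]
    rw [h3, Finset.sum_Icc_succ_top (by omega : 1 ≤ m + 1), Nat.add_sub_cancel, pow_succ]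
    module

/-- **WP-B**: existence of the resolvent kernel package. -/
theorem exists_kernel {w : Fin n → ℝ} {A : Matrix (Fin n) (Fin n) ℝ} (hc : Chain n w A)
    {κ : ℝ} (hκ0 : 0 < κ) (hκ1 : κ < 1) :
    ∃ G B : Matrix (Fin n) (Fin n) ℝ, Kernel w A κ G B := by
  have hA := hc.A_nonneg
  have hA1 := hc.A_row
  have hrev := hc.rev
  have h0 : 0 ≤ κ := hκ0.le
  have h1κ : 0 < 1 - κ := by linarith
  have hcomm := res_comm A hA hA1 κ h0 hκ1
  have hAG0 : ∀ i j, 0 ≤ (A * res A κ) i j := by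
    intro i j
    rw [Matrix.mul_apply]
    exact Finset.sum_nonneg fun k _ => mul_nonneg (hA i k) (res_nonneg A hA κ h0 k j)
  have hAGrow : ∀ i, ∑ j, (A * res A κ) i j = 1 / (1 - κ) := by
    intro i
    simp_rw [Matrix.mul_apply]
    rw [Finset.sum_comm]
    simp_rw [← Finset.mul_sum, res_row_sum A hA hA1 κ h0 hκ1, ← Finset.sum_mul, hA1, one_mul]
  have hAGrev : ∀ i j, w i * (A * res A κ) i j = w j * (A * res A κ) j i := by
    intro i j
    have e2 : (A * res A κ) j i = ∑ k, res A κ j k * A k i := by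
      rw [hcomm, Matrix.mul_apply]
    rw [Matrix.mul_apply, e2, Finset.mul_sum, Finset.mul_sum]
    refine Finset.sum_congr rfl fun k _ => ?_
    calc w i * (A i k * res A κ k j) = (w i * A i k) * res A κ k j := by ring
      _ = (w k * A k i) * res A κ k j := by rw [hrev i k]
      _ = (w k * res A κ k j) * A k i := by ring
      _ = (w j * res A κ j k) * A k i := by rw [res_rev w A hrev κ k j]
      _ = w j * (res A κ j k * A k i) := by ring
  refine ⟨res A κ, ker A κ, ?_⟩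
  refine
    { G_nonneg := res_nonneg A hA κ h0
      G_row := res_row_sum A hA hA1 κ h0 hκ1
      G_rev := res_rev w A hrev κ
      G_eq := res_eq A hA hA1 κ h0 hκ1
      G_eq' := ?_
      B_eq := rfl
      B_eq' := ?_
      B_nonneg := ?_
      B_row := ?_
      B_rev := ?_
      B_res := ker_res A hA hA1 κ h0 hκ1
      B_pow := ker_pow A hA hA1 κ h0 hκ1 }
  · rw [← hcomm]; exact res_eq A hA hA1 κ h0 hκ1
  · unfold ker; rw [hcomm]
  · intro i j
    unfold ker
    rw [Matrix.smul_apply, smul_eq_mul]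
    exact mul_nonneg h1κ.le (hAG0 i j)
  · intro i
    unfold ker
    simp_rw [Matrix.smul_apply, smul_eq_mul]
    rw [← Finset.mul_sum, hAGrow i]
    field_simp
  · intro i j
    unfold ker
    rw [Matrix.smul_apply, Matrix.smul_apply, smul_eq_mul, smul_eq_mul]
    calc w i * ((1 - κ) * (A * res A κ) i j) = (1 - κ) * (w i * (A * res A κ) i j) := by ring
      _ = (1 - κ) * (w j * (A * res A κ) j i) := by rw [hAGrev i j]
      _ = w j * ((1 - κ) * (A * res A κ) j i) := by ring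

end Crest.Agent.Helper69.MC
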